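import Vale.Agent.P281.H713.TZ.Iface

/-! P281, theorem TZ, row Z2 (`SlicePart`): slices of the fibres of `F` of uniform size, from the
flow of a holomorphic distribution tangent to the fibres (Picard-Lindelöf) and the local inverse
theorem. -/

open scoped ContDiff Topology NNReal
open Set Filter Metric

noncomputable section

namespace Vale.Agent.P281.H342.TZ

/-- The flow of a Picard-Lindelöf field, with values in the ball. -/
theorem flow {X : Type} [NormedAddCommGroup X] [NormedSpace ℝ X] [CompleteSpace X]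
    {f : ℝ → X → X} {tmin tmax : ℝ} {t₀ : Icc tmin tmax} {x₀ : X} {a r L K : ℝ≥0}
    (hf : IsPicardLindelof f t₀ x₀ a r L K) :
    ∃ α : X → ℝ → X, (∀ x ∈ closedBall x₀ r, α x t₀ = x ∧
      ∀ t ∈ Icc tmin tmax, α x t ∈ closedBall x₀ a ∧
        HasDerivWithinAt (α x) (f t (α x t)) (Icc tmin tmax) t) ∧
      ∃ L' : ℝ≥0, ∀ t ∈ Icc tmin tmax, LipschitzOnWith L' (α · t) (closedBall x₀ r) := by
  classical
  have (x) (hx : x ∈ closedBall x₀ r) := ODE.FunSpace.exists_isFixedPt_next hf hx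
  choose α hα using this
  set α' := fun (x : X) ↦ if hx : x ∈ closedBall x₀ r then
    α x hx |>.compProj else 0 with hα'
  refine ⟨α', fun x hx ↦ ⟨?_, fun t ht ↦ ⟨?_, ?_⟩⟩, ?_⟩
  · rw [hα']
    beta_reduce
    rw [dif_pos hx, ODE.FunSpace.compProj_val, ← hα, ODE.FunSpace.next_apply₀]
  · rw [hα']
    beta_reduce
    rw [dif_pos hx]
    exact (α x hx).compProj_mem_closedBall hf.mul_max_le
  · rw [hα']
    beta_reduce
    rw [dif_pos hx, ODE.FunSpace.compProj_apply]
    apply ODE.hasDerivWithinAt_picard_Icc t₀.2 hf.continuousOn_uncurry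
      (α x hx |>.continuous_compProj.continuousOn)
      (fun _ ht' ↦ α x hx |>.compProj_mem_closedBall hf.mul_max_le)
      x ht |>.congr_of_mem _ ht
    intro t' ht'
    nth_rw 1 [← hα]
    rw [ODE.FunSpace.compProj_of_mem ht', ODE.FunSpace.next_apply]
  · obtain ⟨L', h⟩ := ODE.FunSpace.exists_forall_closedBall_funSpace_dist_le_mul hf
    refine ⟨L', fun t ht ↦ LipschitzOnWith.of_dist_le_mul fun x hx y hy ↦ ?_⟩
    simp_rw [hα']
    rw [dif_pos hx, dif_pos hy, ODE.FunSpace.compProj_apply, ODE.FunSpace.compProj_apply,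
      ← ODE.FunSpace.toContinuousMap_apply_eq_apply, ← ODE.FunSpace.toContinuousMap_apply_eq_apply]
    have : Nonempty (Icc tmin tmax) := ⟨t₀⟩
    apply ContinuousMap.dist_le_iff_of_nonempty.mp
    exact h x y hx hy (α x hx) (α y hy) (hα x hx) (hα y hy)

/-- A map constant along a curve. -/
theorem const_along {V : Type} [NormedAddCommGroup V] [NormedSpace ℝ V] {g : ℝ → V} {ε : ℝ}
    (hε : 0 < ε) (h : ∀ t ∈ Icc (0 - ε) (0 + ε), HasDerivWithinAt g 0 (Icc (0 - ε) (0 + ε)) t) :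
    g (0 + ε) = g 0 := by
  have hlt : (0 - ε : ℝ) < 0 + ε := by linarith
  have hd : DifferentiableOn ℝ g (Icc (0 - ε) (0 + ε)) := fun t ht =>
    (h t ht).differentiableWithinAt
  have h0 : ∀ t ∈ Ico (0 - ε) (0 + ε), derivWithin g (Icc (0 - ε) (0 + ε)) t = 0 := fun t ht =>
    (h t (Ico_subset_Icc_self ht)).derivWithin (uniqueDiffOn_Icc hlt t (Ico_subset_Icc_self ht))
  have hc := constant_of_derivWithin_zero hd h0
  rw [hc _ (right_mem_Icc.2 hlt.le), hc 0 ⟨by linarith, by linarith⟩]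

/-- Local inverse: a continuous section of a holomorphic map with invertible derivative is
holomorphic. -/
theorem contDiffAt_section {E F V : Type} [NormedAddCommGroup E] [NormedSpace ℂ E]
    [FiniteDimensional ℂ E] [NormedAddCommGroup F] [NormedSpace ℂ F] [FiniteDimensional ℂ F]
    [NormedAddCommGroup V] [NormedSpace ℂ V] (e : E ≃L[ℂ] F) {Φ : E → F} {Q : V → E} {v : V}
    {g : V → F} (hΦ : ContDiffAt ℂ ω Φ (Q v)) (hinj : Function.Injective (fderiv ℂ Φ (Q v)))
    (hQ : ContinuousAt Q v) (hg : ContDiffAt ℂ ω g v) (h : ∀ᶠ u in 𝓝 v, Φ (Q u) = g u) :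
    ContDiffAt ℂ ω Q v := by
  have : CompleteSpace E := FiniteDimensional.complete ℂ E
  have hfr : Module.finrank ℂ E = Module.finrank ℂ F := e.toLinearEquiv.finrank_eq
  have hbij : Function.Bijective (fderiv ℂ Φ (Q v)).toLinearMap :=
    ⟨hinj, (LinearMap.injective_iff_surjective_of_finrank_eq_finrank hfr).1 hinj⟩
  let L : E ≃L[ℂ] F := (LinearEquiv.ofBijective (fderiv ℂ Φ (Q v)).toLinearMap
    hbij).toContinuousLinearEquiv
  have hL : (L : E →L[ℂ] F) = fderiv ℂ Φ (Q v) := by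
    ext x; rfl
  have hd : HasFDerivAt Φ (L : E →L[ℂ] F) (Q v) := by
    rw [hL]; exact (hΦ.differentiableAt (by simp)).hasFDerivAt
  have hn : (ω : WithTop ℕ∞) ≠ 0 := by simp
  have hloc := hΦ.to_localInverse hd hn
  have hleft := (hΦ.hasStrictFDerivAt' hd hn).eventually_left_inverse
  have hgv : Φ (Q v) = g v := h.self_of_nhds
  rw [hgv] at hloc
  have hcomp := hloc.comp v hg
  refine hcomp.congr_of_eventuallyEq ?_
  filter_upwards [hQ.eventually hleft, h] with u hu hu'
  rw [Function.comp_apply, ← hu']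
  exact hu.symm

/-- **Row Z2**. -/
theorem slicePart : H713.TZ.SlicePart := by
  intro E E' E₀ _ _ _ _ _ _ _ _ _ e F c₀ hF L hL P hPL hFL W hW
  have : CompleteSpace E := FiniteDimensional.complete ℂ E
  have : CompleteSpace E₀ := FiniteDimensional.complete ℂ E₀
  -- the vector field
  let f : E × E₀ → E × E₀ := fun x => (L x.1 x.2, 0)
  have hf : ContDiffAt ℝ 1 f (c₀, 0) := by
    have h1 : ContDiffAt ℂ 1 L c₀ := hL.contDiffAt
    have h2 : ContDiffAt ℂ 1 (fun x : E × E₀ => L x.1 x.2) (c₀, 0) :=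
      (h1.comp (c₀, (0 : E₀)) contDiffAt_fst).clm_apply contDiffAt_snd
    exact (h2.prodMk contDiffAt_const).restrict_scalars ℝ
  obtain ⟨ε₁, hε₁, a, r₁, N, K, hr₁, hpl⟩ := IsPicardLindelof.of_contDiffAt_one hf
  -- the good ball
  have hS : ∀ᶠ c in 𝓝 c₀, c ∈ W ∧ AnalyticAt ℂ F c ∧
      P.comp (L c) = ContinuousLinearMap.id ℂ E₀ ∧ (fderiv ℂ F c).comp (L c) = 0 := by
    filter_upwards [hW, hF.eventually_analyticAt, hPL, hFL] with c h1 h2 h3 h4
    exact ⟨h1, h2, h3, h4⟩
  obtain ⟨δ, hδ, hball⟩ := Metric.nhds_basis_closedBall.mem_iff.1 hS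
  have ha0 : 0 < a := by
    have h := (hpl 0).mul_max_le
    have h2 : (0 : ℝ) ≤ N * max ((0 + ε₁) - ((⟨0, by simp [hε₁.le]⟩ :
        Icc (0 - ε₁) (0 + ε₁)) : ℝ)) (((⟨0, by simp [hε₁.le]⟩ :
        Icc (0 - ε₁) (0 + ε₁)) : ℝ) - (0 - ε₁)) := by
      refine mul_nonneg N.2 (le_max_of_le_left ?_)
      simp [hε₁.le]
    have h3 : (0 : ℝ) < r₁ := hr₁
    have h4 : (0 : ℝ) < a := by linarith [h2.trans h]
    exact h4
  let a' : ℝ≥0 := min a ⟨δ, hδ.le⟩
  have ha' : 0 < a' := lt_min ha0 hδ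
  have haa : a' ≤ a := min_le_left _ _
  have haδ : (a' : ℝ) ≤ δ := by
    have : a' ≤ ⟨δ, hδ.le⟩ := min_le_right _ _
    exact this
  have hr' : a' / 2 < a' := NNReal.half_lt_self ha'.ne'
  obtain ⟨ε, hε, hpl'⟩ := (hpl 0).exists_shrink_radius hε₁ haa hr'
  obtain ⟨α, hα, N', hα'⟩ := flow hpl'
  have hρ : (0 : ℝ) < ((a' / 2 : ℝ≥0) : ℝ) := by
    have : (0 : ℝ≥0) < a' / 2 := half_pos ha'
    exact this
  set ρ : ℝ := ((a' / 2 : ℝ≥0) : ℝ) with hρdef
  refine ⟨ε * ρ, by positivity, ?_⟩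
  filter_upwards [Metric.closedBall_mem_nhds c₀ hρ] with c hc hinj
  -- initial values
  let w : E₀ → E₀ := fun v => (ε⁻¹ : ℝ) • (v - P c)
  have hw : Continuous w := (continuous_id.sub continuous_const).const_smul _
  have hmem : ∀ v ∈ ball (P c) (ε * ρ), (c, w v) ∈ closedBall ((c₀, 0) : E × E₀) ρ := by
    intro v hv
    rw [mem_closedBall, Prod.dist_eq]
    refine max_le hc ?_
    show dist (w v) 0 ≤ ρ
    rw [dist_zero_right]
    show ‖(ε⁻¹ : ℝ) • (v - P c)‖ ≤ ρ
    rw [norm_smul, Real.norm_eq_abs, abs_of_pos (inv_pos.2 hε), inv_mul_le_iff₀ hε]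
    rw [mem_ball, dist_eq_norm] at hv
    exact hv.le
  have hin : (0 + ε : ℝ) ∈ Icc (0 - ε) (0 + ε) := right_mem_Icc.2 (by linarith)
  have h0in : (0 : ℝ) ∈ Icc (0 - ε) (0 + ε) := ⟨by linarith, by linarith⟩
  let Q : E₀ → E := fun v => (α (c, w v) (0 + ε)).1
  -- the flow along the distribution
  have hkey : ∀ x ∈ closedBall ((c₀, 0) : E × E₀) ρ,
      (α x (0 + ε)).2 = x.2 ∧ F (α x (0 + ε)).1 = F x.1 ∧
        P (α x (0 + ε)).1 = P x.1 + ε • x.2 ∧ (α x (0 + ε)).1 ∈ closedBall c₀ δ ∧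
        (x.2 = 0 → (α x (0 + ε)).1 = x.1) := by
    intro x hx
    obtain ⟨hx0, hxt⟩ := hα x hx
    have hx0' : α x 0 = x := hx0
    have hin' : ∀ t ∈ Icc (0 - ε) (0 + ε), (α x t).1 ∈ closedBall c₀ δ := by
      intro t ht
      have h := (hxt t ht).1
      rw [mem_closedBall, Prod.dist_eq] at h
      exact ((le_max_left _ _).trans h).trans haδ
    have hgood : ∀ t ∈ Icc (0 - ε) (0 + ε), (α x t).1 ∈ W ∧ AnalyticAt ℂ F (α x t).1 ∧
        P.comp (L (α x t).1) = ContinuousLinearMap.id ℂ E₀ ∧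
        (fderiv ℂ F (α x t).1).comp (L (α x t).1) = 0 := fun t ht => hball (hin' t ht)
    have hd : ∀ t ∈ Icc (0 - ε) (0 + ε), HasDerivWithinAt (α x)
        (L (α x t).1 (α x t).2, (0 : E₀)) (Icc (0 - ε) (0 + ε)) t := fun t ht => (hxt t ht).2
    have hd1 : ∀ t ∈ Icc (0 - ε) (0 + ε), HasDerivWithinAt (fun t => (α x t).1)
        (L (α x t).1 (α x t).2) (Icc (0 - ε) (0 + ε)) t := fun t ht =>
      (ContinuousLinearMap.fst ℝ E E₀).hasFDerivAt.comp_hasDerivWithinAt t (hd t ht)
    have hd2 : ∀ t ∈ Icc (0 - ε) (0 + ε), HasDerivWithinAt (fun t => (α x t).2)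
        0 (Icc (0 - ε) (0 + ε)) t := fun t ht =>
      (ContinuousLinearMap.snd ℝ E E₀).hasFDerivAt.comp_hasDerivWithinAt t (hd t ht)
    have hsnd : ∀ t ∈ Icc (0 - ε) (0 + ε), (α x t).2 = x.2 := by
      intro t ht
      have hlt : (0 - ε : ℝ) < 0 + ε := by linarith
      have hdd : DifferentiableOn ℝ (fun t => (α x t).2) (Icc (0 - ε) (0 + ε)) := fun t ht =>
        (hd2 t ht).differentiableWithinAt
      have h0 : ∀ t ∈ Ico (0 - ε) (0 + ε),
          derivWithin (fun t => (α x t).2) (Icc (0 - ε) (0 + ε)) t = 0 := fun t ht =>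
        (hd2 t (Ico_subset_Icc_self ht)).derivWithin
          (uniqueDiffOn_Icc hlt t (Ico_subset_Icc_self ht))
      have hcst := constant_of_derivWithin_zero hdd h0
      have h1 := hcst t ht
      have h2 := hcst 0 h0in
      rw [hx0'] at h2
      exact h1.trans h2.symm
    refine ⟨hsnd _ hin, ?_, ?_, hin' _ hin, ?_⟩
    · have h : ∀ t ∈ Icc (0 - ε) (0 + ε), HasDerivWithinAt (fun t => F (α x t).1) 0
          (Icc (0 - ε) (0 + ε)) t := by
        intro t ht
        obtain ⟨_, hFa, _, hz⟩ := hgood t ht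
        have h1 := (hFa.differentiableAt.hasFDerivAt.restrictScalars ℝ).comp_hasDerivWithinAt t
          (hd1 t ht)
        have h2 : (fderiv ℂ F (α x t).1) (L (α x t).1 (α x t).2) = 0 := by
          have := congrArg (fun T => T (α x t).2) hz
          simpa using this
        have h3 : ((fderiv ℂ F (α x t).1).restrictScalars ℝ) (L (α x t).1 (α x t).2) = 0 := h2
        rw [h3] at h1
        exact h1
      have := const_along hε h
      rw [this, hx0']
    · have h : ∀ t ∈ Icc (0 - ε) (0 + ε), HasDerivWithinAt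
          (fun t => P (α x t).1 - t • x.2) 0 (Icc (0 - ε) (0 + ε)) t := by
        intro t ht
        obtain ⟨_, _, hid, _⟩ := hgood t ht
        have h1 := (P.restrictScalars ℝ).hasFDerivAt.comp_hasDerivWithinAt t (hd1 t ht)
        have h2 : P (L (α x t).1 (α x t).2) = x.2 := by
          have := congrArg (fun T => T (α x t).2) hid
          have h5 : P (L (α x t).1 (α x t).2) = (α x t).2 := by simpa using this
          rw [h5, hsnd t ht]
        have h3 : (P.restrictScalars ℝ) (L (α x t).1 (α x t).2) = x.2 := h2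
        rw [h3] at h1
        have h4 : HasDerivWithinAt (fun t : ℝ => t • x.2) x.2 (Icc (0 - ε) (0 + ε)) t := by
          have := (hasDerivAt_id t).smul_const x.2
          simp only [one_smul] at this
          exact this.hasDerivWithinAt
        have h5 := h1.sub h4
        rw [sub_self] at h5
        exact h5
      have := const_along hε h
      simp only [hx0', zero_smul, sub_zero, zero_add] at this
      rw [zero_add]
      rw [sub_eq_iff_eq_add] at this
      exact this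
    · intro hx2
      have h : ∀ t ∈ Icc (0 - ε) (0 + ε), HasDerivWithinAt (fun t => (α x t).1) 0
          (Icc (0 - ε) (0 + ε)) t := by
        intro t ht
        have h1 := hd1 t ht
        rw [hsnd t ht, hx2, map_zero] at h1
        exact h1
      have := const_along hε h
      rw [this, hx0']
  have hQF : ∀ v ∈ ball (P c) (ε * ρ), F (Q v) = F c ∧ P (Q v) = v ∧ Q v ∈ closedBall c₀ δ := by
    intro v hv
    obtain ⟨_, h2, h3, h4, _⟩ := hkey _ (hmem v hv)
    refine ⟨h2, ?_, h4⟩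
    have : P (Q v) = P c + ε • w v := h3
    rw [this]
    show P c + ε • ((ε⁻¹ : ℝ) • (v - P c)) = v
    rw [smul_smul, mul_inv_cancel₀ hε.ne', one_smul, add_sub_cancel]
  have hQc : ContinuousOn Q (ball (P c) (ε * ρ)) := by
    have h1 : ContinuousOn (fun x => (α x (0 + ε)).1) (closedBall ((c₀, 0) : E × E₀) ρ) :=
      continuous_fst.comp_continuousOn (hα' _ hin).continuousOn
    exact h1.comp (continuous_const.prodMk hw).continuousOn hmem
  refine ⟨Q, ?_, fun v hv => ?_⟩
  · -- the constant curve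
    have hPc : P c ∈ ball (P c) (ε * ρ) := mem_ball_self (by positivity)
    have hw0 : w (P c) = 0 := by
      show (ε⁻¹ : ℝ) • (P c - P c) = 0
      rw [sub_self, smul_zero]
    exact (hkey _ (hmem _ hPc)).2.2.2.2 hw0
  · obtain ⟨h1, h2, h3⟩ := hQF v hv
    obtain ⟨g1, g2, g3, g4⟩ := hball h3
    refine ⟨?_, g1, h1, h2⟩
    have hfd : fderiv ℂ (fun x => (F x, P x)) (Q v) = (fderiv ℂ F (Q v)).prod P :=
      (g2.differentiableAt.hasFDerivAt.prodMk P.hasFDerivAt).fderiv
    refine contDiffAt_section e (Φ := fun x => (F x, P x)) (g := fun u => (F c, u))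
      (g2.contDiffAt.prodMk P.contDiff.contDiffAt) ?_
      (hQc.continuousAt (isOpen_ball.mem_nhds hv)) (contDiffAt_const.prodMk contDiffAt_id) ?_
    · rw [hfd]; exact hinj _ g1 h1
    · filter_upwards [isOpen_ball.mem_nhds hv] with u hu
      obtain ⟨k1, k2, _⟩ := hQF u hu
      simp only [Prod.mk.injEq]
      exact ⟨k1, k2⟩

end Vale.Agent.P281.H342.TZ
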